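import Vale.Agent.P153.R2.KPOS.H469.Dens

/-!
# P153, KPOS: positive density of the scales with circuits of closed edges, plane law

No hypothesis besides `IsQ Q` (no arm estimate, no lower bound on the variance).
-/

namespace Vale.Agent.P153.R2.KPOS.H469

open MeasureTheory
open Vale.Agent.P153.A Vale.Agent.P153.F.RSW Vale.Agent.P153.F.RSW.PT

/-- `j` is a fine dyadic scale of the plane law: circuits of closed edges around every centre and
crossings `4 : 1` of parallelograms of height `2 ^ j` have probability at least `c`. -/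
def FineS (Q : Measure Om) (c : ℝ) (j : ℕ) : Prop :=
  (∀ p q : ℤ, c ≤ pW Q (Ann p q (2 ^ j : ℕ))) ∧ c ≤ pW Q (LRp 0 (4 * (2 ^ j : ℕ)) 0 (2 ^ j : ℕ))

open Classical in
/-- The number of fine dyadic scales in `[a, b)`. -/
noncomputable def cntQ (Q : Measure Om) (c : ℝ) (a b : ℕ) : ℕ :=
  ((Finset.Ico a b).filter (fun j : ℕ => FineS Q c j)).card

/-- **Positive prefix density of the fine scales of the plane law**, unconditional. -/
theorem densQ {Q : Measure Om} (hQ : IsQ Q) :
    ∃ c : ℝ, 0 < c ∧ ∃ j0 : ℕ, ∀ J, j0 ≤ J → J - j0 ≤ 7 * cntQ Q c j0 J := by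
  classical
  obtain ⟨c, hc, h1, h2⟩ := base s_sym hQ (ptQ hQ) rfl
  obtain ⟨c', hc', j0, h⟩ := dens (ptQ hQ) geo hc 1 (fun n hn => h1 n (by exact_mod_cast hn))
    (fun n hn => h2 n (by exact_mod_cast hn))
  refine ⟨min c' (c' ^ 4), by positivity, j0, fun J hJ => (h J hJ).trans ?_⟩
  refine Nat.mul_le_mul_left _ (Finset.card_le_card fun j hj => ?_)
  rw [Finset.mem_filter] at hj ⊢
  refine ⟨hj.1, fun p q => ?_, ?_⟩
  · have := (ptQ hQ).Ann_ge p q hc'.le hj.2
    exact (min_le_right _ _).trans this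
  · exact (min_le_left _ _).trans hj.2

end Vale.Agent.P153.R2.KPOS.H469
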