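import Vale.Agent.P153.R2.KPOS.H469.Sep

/-!
# P153, KPOS: the plateau scales have positive density (K2)
-/

namespace Vale.Agent.P153.R2.KPOS.H469

open MeasureTheory
open Vale.Agent.P153 Vale.Agent.P153.R2
open Vale.Agent.P153.F.RSW (Ann pW)
open Vale.Agent.P153.A (IsQ)

/-- **Plateau scales have positive density**, no hypothesis besides `IsQ Q`. For every `δ`, `L`, `Λ`
there is a block length `B` such that at least one block out of `14` starts with a scale `m` with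
fine scales `g`, `b`, `g'`, `m + L ≤ a`, `a + L ≤ g`, `g + L ≤ b`, `b + L ≤ g' < m + B`, such that in
the box `2 ^ b - 2` with free data there are closed edges separating `Λ 2 ^ m` from `2 ^ a` with
probability at least `1 - δ`. -/
theorem plateau {Q : Measure A.Om} (hQ : IsQ Q) : ∃ c : ℝ, 0 < c ∧ ∃ j0 : ℕ, ∀ δ : ℝ, 0 < δ →
    ∀ L Λ : ℕ, ∃ B : ℕ, 1 ≤ B ∧ ∀ K : ℕ, ∃ S : Finset ℕ, S ⊆ Finset.range K ∧ K ≤ 14 * S.card ∧
      ∀ i ∈ S, ∃ a g b g', IsPlat {j | FineS Q c j} (wS Λ) δ L B (j0 + i * B) a g b g' := by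
  obtain ⟨c, hc, j0, hd⟩ := densQ hQ
  refine ⟨c, hc, j0, fun δ hδ L Λ => ?_⟩
  have hL : Λ ≤ 2 ^ (L + Λ) := by
    have h1 := Nat.lt_two_pow_self (n := Λ)
    have h2 : 2 ^ Λ ≤ 2 ^ (L + Λ) := Nat.pow_le_pow_right (by norm_num) (by omega)
    omega
  obtain ⟨B, hB, h⟩ := plat {j | FineS Q c j} j0 7 (fun J hJ => by
    have h1 := hd J hJ
    have h2 : cntQ Q c j0 J = cnF {j | FineS Q c j} j0 J := rfl
    rwa [← h2]) (wS Λ) c δ hc hδ (wS_nonneg Λ) (wS_le_one Λ) (L + Λ)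
    (fun m a b N h1 h2 h3 h4 => wS_step hQ hL h1 h2 h3 h4)
  refine ⟨B, hB, fun K => ?_⟩
  obtain ⟨S, hS, hS2, hS3⟩ := h K
  refine ⟨S, hS, by omega, fun i hi => ?_⟩
  obtain ⟨a, g, b, g', hp⟩ := hS3 i hi
  exact ⟨a, g, b, g', hp.mono (by omega)⟩

/-- The probability in the box with free data. -/
theorem plat_Pr {F : Set ℕ} {Λ : ℕ} {δ : ℝ} {L B m a g b g' : ℕ}
    (h : IsPlat F (wS Λ) δ L B m a g b g') (hb : 1 ≤ b) :
    Pr (Cfg (bx (0, 0) (2 ^ b - 2 : ℤ)) (frd (bx (0, 0) (2 ^ b - 2 : ℤ)) 0))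
      (SepC (0, 0) (Λ * 2 ^ m : ℤ) (2 ^ a : ℤ))ᶜ ≤ δ := by
  rw [wS_eq hb]
  exact h.small

/-- **(T1)** at a fine scale, every centre, every box. -/
theorem fine_sep {Q : Measure A.Om} (hQ : IsQ Q) {c : ℝ} {g : ℕ} (hg : FineS Q c g) {p : Pt} {R : ℤ}
    (hR : 0 ≤ R) (z : Pt) {r1 r2 : ℤ} (h1 : r1 ≤ 2 ^ g) (h2 : 2 * 2 ^ g ≤ r2) :
    c ≤ Pr (Cfg (bx p R) (frd (bx p R) 0)) (SepC z r1 r2) := by
  have h3 : (1 : ℤ) ≤ 2 ^ g := by
    have : (0 : ℤ) < 2 ^ g := by positivity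
    omega
  have h4 := hg.1 z.1 z.2
  push_cast at h4
  exact h4.trans (sep_ge hQ hR h3 h1 h2)

end Vale.Agent.P153.R2.KPOS.H469
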