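import Vale.Agent.P153.Bd5.B29

/-!
# P153, KPOS: conditional domination for the first spin (K2b)

`E1_cond`: in a domain `D`, given the first spin off the interior of a smaller domain `D1`, the law
inside is dominated by the law of the first spin in `D1`.
-/

namespace Vale.Agent.P153.R2.KPOS.H469

open Finset Vale.Agent.P153.A

/-- The sum over the configurations in `A` which agree with `y` under `r`. -/
private noncomputable def Sf (A : Finset Sp) (D : Finset Pt) (r : Sp → Sp) (u : Sp → ℝ) (y : Sp) : ℝ :=
  open Classical in ∑ τ ∈ A with r τ = y, (w D τ : ℝ) * u τ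

open Classical in
/-- Forget the spins in the interior of `D1`. -/
private noncomputable def rr (D1 : Finset Pt) (τ : Sp) : Sp := fun x => if x ∈ inn D1 then true else τ x

private theorem rr_eq {D1 : Finset Pt} {a b : Sp} :
    rr D1 a = rr D1 b ↔ ∀ x, x ∉ inn D1 → a x = b x := by
  constructor
  · intro h x hx
    have := congrFun h x
    unfold rr at this
    rwa [if_neg hx, if_neg hx] at this
  · intro h
    funext x
    unfold rr
    by_cases hx : x ∈ inn D1
    · rw [if_pos hx, if_pos hx]
    · rw [if_neg hx, if_neg hx, h x hx]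

/-- **Conditional domination.** -/
theorem E1_cond {D1 D : Finset Pt} (h : D1 ⊆ D) {f g : Sp → ℝ} (hf : Monotone f)
    (hf0 : ∀ a, 0 ≤ f a) (hg0 : ∀ a, 0 ≤ g a)
    (hg : ∀ a b : Sp, (∀ x, x ∉ inn D1 → a x = b x) → g a = g b) :
    E1 D (fun τ => f τ * g τ) ≤ E1 D1 f * E1 D g := by
  classical
  have h2 := s_e1
  rw [fkg_E1_eq h2, fkg_E1_eq h2 D g, fkg_E1_eq h2 D1 f]
  have hZ := fkg_Z_pos h2 D
  have hZ1 := fkg_Z_pos h2 D1
  set A := (h2 D).1.toFinset with hA
  have hmem : ∀ {a}, a ∈ A ↔ a ∈ Adm D := by
    intro a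
    rw [hA, Set.Finite.mem_toFinset]
  set r : Sp → Sp := rr D1 with hr
  -- the sums over the configurations which are `true` off the interior of `D1`
  have hplus : ∀ u : Sp → ℝ, (2 : ℝ) ^ (D \ D1).card *
      ∑ τ ∈ (h2 D1).1.toFinset, (w D1 τ : ℝ) * u τ = ∑ τ ∈ A, (w D τ : ℝ) * (u τ * Dm.ind D1 τ) :=
    fun u => Dm.sum_eq h2 h u
  have hc : (0 : ℝ) < 2 ^ (D \ D1).card := by positivity
  -- one fibre
  have fibre : ∀ y, Sf A D r f y * (∑ τ ∈ A, (w D τ : ℝ) * (1 * Dm.ind D1 τ)) ≤
      Sf A D r (fun _ => 1) y * ∑ τ ∈ A, (w D τ : ℝ) * (f τ * Dm.ind D1 τ) := by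
    intro y
    have hi01 : ∀ τ, 0 ≤ Dm.ind D1 τ := fun τ => by
      unfold Dm.ind; split_ifs <;> norm_num
    have key := four_functions_theorem (α := Sp) (β := ℝ)
      (f₁ := fun τ => if τ ∈ A ∧ r τ = y then (w D τ : ℝ) * f τ else 0)
      (f₂ := fun τ => if τ ∈ A then (w D τ : ℝ) * (1 * Dm.ind D1 τ) else 0)
      (f₃ := fun τ => if τ ∈ A ∧ r τ = y then (w D τ : ℝ) * 1 else 0)
      (f₄ := fun τ => if τ ∈ A then (w D τ : ℝ) * (f τ * Dm.ind D1 τ) else 0)
      (fun τ => by
        simp only [Pi.zero_apply]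
        split_ifs
        · exact mul_nonneg (Nat.cast_nonneg _) (hf0 _)
        · exact le_rfl)
      (fun τ => by
        simp only [Pi.zero_apply]
        split_ifs
        · exact mul_nonneg (Nat.cast_nonneg _) (mul_nonneg zero_le_one (hi01 _))
        · exact le_rfl)
      (fun τ => by
        simp only [Pi.zero_apply]
        split_ifs
        · exact mul_nonneg (Nat.cast_nonneg _) zero_le_one
        · exact le_rfl)
      (fun τ => by
        simp only [Pi.zero_apply]
        split_ifs
        · exact mul_nonneg (Nat.cast_nonneg _) (mul_nonneg (hf0 _) (hi01 _))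
        · exact le_rfl)
      (fun a b => by
        by_cases ha : a ∈ A ∧ r a = y
        · by_cases hb : b ∈ A
          · by_cases hb1 : b ∈ Adm D1
            · have ha' := hmem.1 ha.1
              have hs : a ⊔ b ∈ A := hmem.2 fun x hx => by
                rw [Pi.sup_apply, ha' x hx]; rfl
              have hin : a ⊓ b ∈ A := hmem.2 fun x hx => by
                rw [Pi.inf_apply, ha' x hx, (hmem.1 hb) x hx]; rfl
              have hs1 : a ⊔ b ∈ Adm D1 := fun x hx => by
                rw [Pi.sup_apply, hb1 x hx]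
                cases a x <;> rfl
              have hry : r (a ⊓ b) = y := by
                rw [← ha.2, hr, rr_eq]
                intro x hx
                rw [Pi.inf_apply, hb1 x hx]
                cases a x <;> rfl
              simp only [if_pos ha, if_pos hb, if_pos hs, if_pos (⟨hin, hry⟩ : _ ∧ _)]
              have e1 : Dm.ind D1 b = 1 := by unfold Dm.ind; rw [if_pos hb1]
              have e2 : Dm.ind D1 (a ⊔ b) = 1 := by unfold Dm.ind; rw [if_pos hs1]
              rw [e1, e2]
              have h3 : (w D a : ℝ) * w D b ≤ w D (a ⊔ b) * w D (a ⊓ b) := by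
                exact_mod_cast s_super D a b ha' (hmem.1 hb)
              have h4 : f a ≤ f (a ⊔ b) := hf le_sup_left
              calc (w D a : ℝ) * f a * (w D b * (1 * 1)) = (w D a * w D b) * f a := by ring
                _ ≤ (w D (a ⊔ b) * w D (a ⊓ b)) * f (a ⊔ b) :=
                  mul_le_mul h3 h4 (hf0 _) (by positivity)
                _ = w D (a ⊓ b) * 1 * (w D (a ⊔ b) * (f (a ⊔ b) * 1)) := by ring
            · have e1 : Dm.ind D1 b = 0 := by unfold Dm.ind; rw [if_neg hb1]
              simp only [if_pos ha, if_pos hb, e1, mul_zero]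
              apply mul_nonneg
              · split_ifs
                · exact mul_nonneg (Nat.cast_nonneg _) zero_le_one
                · exact le_rfl
              · split_ifs
                · exact mul_nonneg (Nat.cast_nonneg _) (mul_nonneg (hf0 _) (hi01 _))
                · exact le_rfl
          · simp only [if_neg hb, mul_zero]
            apply mul_nonneg
            · split_ifs
              · exact mul_nonneg (Nat.cast_nonneg _) zero_le_one
              · exact le_rfl
            · split_ifs
              · exact mul_nonneg (Nat.cast_nonneg _) (mul_nonneg (hf0 _) (hi01 _))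
              · exact le_rfl
        · simp only [if_neg ha, zero_mul]
          apply mul_nonneg
          · split_ifs
            · exact mul_nonneg (Nat.cast_nonneg _) zero_le_one
            · exact le_rfl
          · split_ifs
            · exact mul_nonneg (Nat.cast_nonneg _) (mul_nonneg (hf0 _) (hi01 _))
            · exact le_rfl)
      A A
    open scoped FinsetFamily in
    have hinf : A ⊼ A = A := by
      apply Finset.Subset.antisymm
      · intro x hx
        obtain ⟨a, ha, b, hb, rfl⟩ := Finset.mem_infs.1 hx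
        exact hmem.2 fun x hx => by
          rw [Pi.inf_apply, (hmem.1 ha) x hx, (hmem.1 hb) x hx]; rfl
      · exact Finset.subset_infs_self
    open scoped FinsetFamily in
    have hsup : A ⊻ A = A := by
      apply Finset.Subset.antisymm
      · intro x hx
        obtain ⟨a, ha, b, hb, rfl⟩ := Finset.mem_sups.1 hx
        exact hmem.2 fun x hx => by
          rw [Pi.sup_apply, (hmem.1 ha) x hx]; rfl
      · exact Finset.subset_sups_self
    rw [hinf, hsup] at key
    have e3 : ∀ u : Sp → ℝ, (∑ τ ∈ A, if τ ∈ A ∧ r τ = y then (w D τ : ℝ) * u τ else 0) =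
        Sf A D r u y := by
      intro u
      unfold Sf
      rw [Finset.sum_filter]
      refine Finset.sum_congr rfl fun τ hτ => ?_
      simp only [hτ, true_and]
    have e4 : ∀ u : Sp → ℝ, (∑ τ ∈ A, if τ ∈ A then (w D τ : ℝ) * u τ else 0) =
        ∑ τ ∈ A, (w D τ : ℝ) * u τ := fun u =>
      Finset.sum_congr rfl fun τ hτ => if_pos hτ
    rw [e3 f, e3 fun _ => 1, e4 fun τ => 1 * Dm.ind D1 τ, e4 fun τ => f τ * Dm.ind D1 τ] at key
    exact key
  -- sum over the fibres
  have hfib : ∀ u : Sp → ℝ, (∑ τ ∈ A, (w D τ : ℝ) * (u τ * g τ)) =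
      ∑ y ∈ A.image r, g y * Sf A D r u y := by
    intro u
    rw [← Finset.sum_fiberwise_of_maps_to (s := A) (t := A.image r) (g := r)
      (fun x hx => Finset.mem_image_of_mem r hx)]
    refine Finset.sum_congr rfl fun y _ => ?_
    unfold Sf
    rw [Finset.mul_sum]
    refine Finset.sum_congr rfl fun τ hτ => ?_
    rw [Finset.mem_filter] at hτ
    have : g τ = g y := by
      rw [← hτ.2]
      refine hg _ _ fun x hx => ?_
      show τ x = rr D1 τ x
      unfold rr
      rw [if_neg hx]
    rw [this]
    ring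
  have e5 := hfib f
  have e6 := hfib fun _ => 1
  simp only [one_mul] at e6
  have p1 := hplus f
  have p2 := hplus fun _ => 1
  simp only [mul_one] at p2
  rw [div_mul_div_comm, div_le_div_iff₀ hZ (by positivity)]
  set Zp := ∑ τ ∈ A, (w D τ : ℝ) * (1 * Dm.ind D1 τ) with hZp
  set Fp := ∑ τ ∈ A, (w D τ : ℝ) * (f τ * Dm.ind D1 τ) with hFp
  set Z1 := ∑ τ ∈ (h2 D1).1.toFinset, (w D1 τ : ℝ) with hZ1d
  set F1 := ∑ τ ∈ (h2 D1).1.toFinset, (w D1 τ : ℝ) * f τ with hF1
  set Z := ∑ τ ∈ A, (w D τ : ℝ) with hZd
  set G := ∑ τ ∈ A, (w D τ : ℝ) * g τ with hGd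
  have key : (∑ τ ∈ A, (w D τ : ℝ) * (f τ * g τ)) * Zp ≤ G * Fp := by
    rw [e5, e6, Finset.sum_mul, Finset.sum_mul]
    refine Finset.sum_le_sum fun y _ => ?_
    have h3 := mul_le_mul_of_nonneg_left (fibre y) (hg0 y)
    calc g y * Sf A D r f y * Zp = g y * (Sf A D r f y * Zp) := by ring
      _ ≤ g y * (Sf A D r (fun _ => 1) y * Fp) := h3
      _ = g y * Sf A D r (fun _ => 1) y * Fp := by ring
  rw [← p1, ← p2] at key
  set c : ℝ := 2 ^ (D \ D1).card
  set T := ∑ τ ∈ A, (w D τ : ℝ) * (f τ * g τ)
  have h5 : c * (T * Z1) ≤ c * (F1 * G) := by linarith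
  have h6 : T * Z1 ≤ F1 * G := le_of_mul_le_mul_left h5 hc
  calc T * (Z1 * Z) = (T * Z1) * Z := by ring
    _ ≤ (F1 * G) * Z := mul_le_mul_of_nonneg_right h6 hZ.le

end Vale.Agent.P153.R2.KPOS.H469
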