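import Vale.Agent.P153.Bd5.B29

/-!
# P153, KPOS: positive density of the scales with long crossings (no arm estimate)

`dens`: for a positively associated and symmetric percolation of the midpoints whose rhombi and
hexagons are crossed with probability at least `c0`, the dyadic scales at which long parallelograms
are crossed with probability at least `c` have prefix density at least `1 / 7`.
-/

namespace Vale.Agent.P153.R2.KPOS.H469

open Vale.Agent.P153.F.RSW Vale.Agent.P153.F.RSW.PT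

variable {P : PT} {c0 : ℝ} {N : ℕ}

/-- The constant at the scales between a good scale and the first large threshold. -/
noncomputable def cG (c0 : ℝ) : ℝ :=
  min (c1 c0 * (c0 * c1 c0) ^ 1200)
    ((c0 / 4) * (c0 / 4) * (c1 c0 * (c0 * c1 c0) ^ 79) ^ 4 *
      (c0 * ((c0 / 4) * (c0 / 4) * (c1 c0 * (c0 * c1 c0) ^ 79) ^ 4)) ^ 20)

theorem cG_pos (h0 : 0 < c0) : 0 < cG c0 := by
  have := c1_pos h0
  unfold cG
  positivity

theorem fine (G : Geo) (h0 : 0 < c0) (hsq : P.Sq c0 N) {n : ℕ} (hn : N ≤ n) (hn36 : 36 ≤ n)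
    (hg : P.Good c0 n) {r : ℕ} (hr : 5 * n ≤ r)
    (hal : ∀ t, 10 * n ≤ t → 6 * t ≤ r → P.al c0 t < 5 * n) : cG c0 ≤ P.L (4 * r) r := by
  have hc1 : 0 < c1 c0 := c1_pos h0
  by_cases hr2 : r ≤ 72 * n
  · have h1 := long_of_good G h0 hsq hn hn36 hg 1200 (4 * r) (by omega) (by push_cast; omega)
    exact (min_le_left _ _).trans (h1.trans (P.L_mono G (by omega) le_rfl (by omega)))
  · obtain ⟨s, hs⟩ : ∃ s : ℕ, s = 5 * n := ⟨_, rfl⟩
    set c2 : ℝ := (c1 c0 * (c0 * c1 c0) ^ 79) ^ 4 with hc2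
    have hc2p : 0 < c2 := by positivity
    have e1 : c2 ≤ P.p (Ann 0 0 s) := by
      have h1 := long_of_good G h0 hsq hn hn36 hg 79 (4 * s) (by omega) (by push_cast; omega)
      have h2 : (5 * n : ℤ) = s := by omega
      rw [h2] at h1
      exact P.Ann_ge 0 0 (by positivity) h1
    obtain ⟨t, ht⟩ : ∃ t : ℕ, t = r / 6 := ⟨_, rfl⟩
    have f1 := long_of_ann G h0 (s := s) (t := t) (by omega) (by omega)
      (by rw [hs]; exact hal t (by omega) (by omega)) hc2p.le e1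
    exact (min_le_right _ _).trans
      (ratio4 G h0 hsq (t := t) (by omega) (by positivity) f1 (by omega) (by omega))

theorem useq_mono (t : ℕ) : Monotone (useq t) :=
  monotone_nat_of_le_succ fun j => by simp only [useq]; omega

/-- After the first large threshold, the thresholds grow until the next good scale. -/
theorem gap (G : Geo) (h0 : 0 < c0) (hc : c0 ≤ 1) (hhx : P.Hx c0 N) {n t1 T : ℕ} (hn : N ≤ n)
    (hn1 : 1 ≤ n) (ht1 : 10 * n ≤ t1) (hal : 5 * n ≤ P.al c0 t1)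
    (hb : ∀ m, t1 < m → m ≤ T → ¬ P.Good c0 m) (j : ℕ) (hj : useq t1 j ≤ T) :
    2 ^ j * (10 * n) * 2 ^ j ≤ 3 ^ j * t1 := by
  have hlt : ∀ i, t1 < useq t1 (i + 1) := fun i => by
    have := useq_ge t1 i
    simp only [useq]; omega
  have h1 := grow G h0 hc hhx (t := t1) (by omega) (by omega) (J := j)
    (fun i hi => hb _ (hlt i) ((useq_mono t1 (by omega)).trans hj)) j le_rfl
  have h2 := P.al_le c0 (useq t1 j)
  have h3 := useq_le t1 j
  have h4 : 2 ^ j * (5 * n) ≤ useq t1 j / 2 := (Nat.mul_le_mul_left _ hal).trans (h1.trans h2)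
  have h5 : 2 ^ j * (10 * n) ≤ useq t1 j := by
    have : 2 ^ j * (10 * n) = 2 * (2 ^ j * (5 * n)) := by ring
    omega
  calc 2 ^ j * (10 * n) * 2 ^ j ≤ useq t1 j * 2 ^ j := Nat.mul_le_mul_right _ h5
    _ = 2 ^ j * useq t1 j := by ring
    _ ≤ _ := h3

open Classical in
/-- The number of fine dyadic scales. -/
noncomputable def cnt (P : PT) (c : ℝ) (a b : ℕ) : ℕ :=
  ((Finset.Ico a b).filter (fun j : ℕ => c ≤ P.L (4 * (2 ^ j : ℕ)) (2 ^ j : ℕ))).card

theorem cnt_split (P : PT) (c : ℝ) {a b d : ℕ} (h1 : a ≤ b) (h2 : b ≤ d) :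
    cnt P c a d = cnt P c a b + cnt P c b d := by
  classical
  unfold cnt
  rw [← Finset.Ico_union_Ico_eq_Ico h1 h2, Finset.filter_union, Finset.card_union_of_disjoint]
  exact Finset.disjoint_filter_filter (Finset.Ico_disjoint_Ico_consecutive a b d)

theorem cnt_mono (P : PT) (c : ℝ) {a b a' b' : ℕ} (h1 : a' ≤ a) (h2 : b ≤ b') :
    cnt P c a b ≤ cnt P c a' b' := by
  classical
  unfold cnt
  exact Finset.card_le_card (Finset.filter_subset_filter _ (Finset.Ico_subset_Ico h1 h2))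

theorem cnt_all (P : PT) (c : ℝ) {a b : ℕ}
    (h : ∀ j, a ≤ j → j < b → c ≤ P.L (4 * (2 ^ j : ℕ)) (2 ^ j : ℕ)) : cnt P c a b = b - a := by
  classical
  unfold cnt
  rw [Finset.filter_true_of_mem, Nat.card_Ico]
  intro j hj
  rw [Finset.mem_Ico] at hj
  exact h j hj.1 hj.2

/-- The last part of the induction: from a good scale `n` and a bad dyadic scale `J`. -/
theorem step (G : Geo) (h0 : 0 < c0) (hc : c0 ≤ 1) (hsq : P.Sq c0 N) (hhx : P.Hx c0 N) {n J : ℕ}
    (hn : N ≤ n) (hn36 : 36 ≤ n) (hg : P.Good c0 n)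
    (hJ : ¬ cG c0 ≤ P.L (4 * (2 ^ J : ℕ)) (2 ^ J : ℕ)) (hn5 : 5 * n ≤ 2 ^ J)
    (hlast : ∀ m, n < m → 5 * m ≤ 2 ^ J → ¬ P.Good c0 m) :
    ∃ i ≤ J, 5 * n ≤ 2 ^ i ∧ J + 1 - i ≤ 7 * cnt P (cG c0) i J := by
  classical
  -- the first large threshold
  have hex : ∃ t, 10 * n ≤ t ∧ 6 * t ≤ 2 ^ J ∧ 5 * n ≤ P.al c0 t := by
    by_contra hcon
    push Not at hcon
    exact hJ (fine G h0 hsq hn hn36 hg hn5 hcon)
  set t1 := Nat.find hex with ht1
  obtain ⟨h1, h2, h3⟩ := Nat.find_spec hex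
  rw [← ht1] at h1 h2 h3
  have hmin : ∀ t, 10 * n ≤ t → 6 * t ≤ 2 ^ J → t < t1 → P.al c0 t < 5 * n := by
    intro t a1 a2 a3
    by_contra hcon
    exact Nat.find_min hex a3 ⟨a1, a2, by omega⟩
  -- the first dyadic scale
  have hexi : ∃ i, 5 * n ≤ 2 ^ i := ⟨J, hn5⟩
  set i := Nat.find hexi with hi
  have hi1 : 5 * n ≤ 2 ^ i := Nat.find_spec hexi
  have hiJ : i ≤ J := Nat.find_min' hexi hn5
  have hi2 : 2 ^ i < 10 * n := by
    rcases Nat.eq_zero_or_pos i with h | h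
    · rw [h]; omega
    · have := Nat.find_min hexi (m := i - 1) (by omega)
      have e : 2 ^ i = 2 * 2 ^ (i - 1) := by
        rw [← pow_succ']; congr 1; omega
      omega
  -- the dyadic scale of `6 t1`
  have hexq : ∃ q, 6 * t1 ≤ 2 ^ (i + q) := ⟨J - i, by rw [Nat.add_sub_cancel' hiJ]; exact h2⟩
  set q := Nat.find hexq with hq
  have hq1 : 6 * t1 ≤ 2 ^ (i + q) := Nat.find_spec hexq
  have hqJ : i + q ≤ J := by
    have := Nat.find_min' hexq (m := J - i) (by rw [Nat.add_sub_cancel' hiJ]; exact h2)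
    omega
  have hq0 : 1 ≤ q := by
    by_contra hcon
    have : q = 0 := by omega
    rw [this, add_zero] at hq1
    omega
  have hq2 : 2 ^ (i + q) < 12 * t1 := by
    have := Nat.find_min hexq (m := q - 1) (by omega)
    have e : 2 ^ (i + q) = 2 * 2 ^ (i + (q - 1)) := by
      rw [← pow_succ']; congr 1; omega
    omega
  have hfine : ∀ j, i ≤ j → j < i + q → cG c0 ≤ P.L (4 * (2 ^ j : ℕ)) (2 ^ j : ℕ) := by
    intro j a1 a2
    have b1 : 2 ^ i ≤ 2 ^ j := Nat.pow_le_pow_right (by norm_num) a1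
    have b2 : ¬ 6 * t1 ≤ 2 ^ j := fun h => by
      have := Nat.find_min' hexq (m := j - i) (by rw [Nat.add_sub_cancel' a1]; exact h)
      omega
    have b3 : 2 ^ j ≤ 2 ^ J := Nat.pow_le_pow_right (by norm_num) (by omega)
    exact fine G h0 hsq hn hn36 hg (by omega) (fun t c1' c2' => hmin t c1' (by omega) (by omega))
  have hcnt : q ≤ cnt P (cG c0) i J := by
    have e := cnt_all P (cG c0) (a := i) (b := i + q) hfine
    have := cnt_mono P (cG c0) (a := i) (b := i + q) (a' := i) (b' := J) le_rfl hqJ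
    omega
  refine ⟨i, hiJ, hi1, ?_⟩
  -- the number of steps before the next good scale
  have hexj : ∃ j, 2 ^ J < 5 * useq t1 j := by
    refine ⟨2 ^ J, ?_⟩
    have : ∀ j, t1 + j ≤ useq t1 j := by
      intro j
      induction j with
      | zero => simp [useq]
      | succ j ih =>
        have := useq_ge t1 j
        simp only [useq]; omega
    have := this (2 ^ J)
    omega
  set j := Nat.find hexj with hj
  have hj1 : 2 ^ J < 5 * useq t1 j := Nat.find_spec hexj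
  have hj0 : 1 ≤ j := by
    by_contra hcon
    have : j = 0 := by omega
    rw [this] at hj1
    simp only [useq] at hj1
    omega
  have hj2 : 5 * useq t1 (j - 1) ≤ 2 ^ J := by
    have := Nat.find_min hexj (m := j - 1) (by omega)
    omega
  have hgap := gap G h0 hc hhx (n := n) (t1 := t1) (T := 2 ^ J / 5) hn (by omega) h1 h3
    (fun m m1 m2 => hlast m (by omega) (by omega)) (j - 1) (by omega)
  -- `(4/3)^(j-1) ≤ 2^q`
  have e1 : 4 ^ (j - 1) ≤ 3 ^ (j - 1) * 2 ^ q := by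
    have a1 : 2 ^ (j - 1) * 2 ^ i * 2 ^ (j - 1) ≤ 3 ^ (j - 1) * (2 ^ i * 2 ^ q) := by
      calc 2 ^ (j - 1) * 2 ^ i * 2 ^ (j - 1) ≤ 2 ^ (j - 1) * (10 * n) * 2 ^ (j - 1) :=
            Nat.mul_le_mul_right _ (Nat.mul_le_mul_left _ hi2.le)
        _ ≤ 3 ^ (j - 1) * t1 := hgap
        _ ≤ 3 ^ (j - 1) * (2 ^ i * 2 ^ q) := Nat.mul_le_mul_left _ (by rw [← pow_add]; omega)
    have a2 : 2 ^ i * 4 ^ (j - 1) ≤ 2 ^ i * (3 ^ (j - 1) * 2 ^ q) := by
      have e : (4 : ℕ) ^ (j - 1) = 2 ^ (j - 1) * 2 ^ (j - 1) := by rw [← mul_pow]; norm_num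
      rw [e]
      calc 2 ^ i * (2 ^ (j - 1) * 2 ^ (j - 1)) = 2 ^ (j - 1) * 2 ^ i * 2 ^ (j - 1) := by ring
        _ ≤ _ := a1
        _ = _ := by ring
    exact Nat.le_of_mul_le_mul_left a2 (by positivity)
  have e2 : j - 1 ≤ 3 * q := by
    by_contra hcon
    have hlt : 3 * q + 1 ≤ j - 1 := by omega
    obtain ⟨d, hd⟩ : ∃ d, j - 1 = 3 * q + d := ⟨j - 1 - 3 * q, by omega⟩
    rw [hd] at e1
    have a1 : (4 : ℕ) ^ (3 * q + d) = 64 ^ q * 4 ^ d := by
      rw [pow_add, pow_mul]; norm_num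
    have a2 : (3 : ℕ) ^ (3 * q + d) = 27 ^ q * 3 ^ d := by
      rw [pow_add, pow_mul]; norm_num
    rw [a1, a2] at e1
    have a3 : 27 ^ q * 3 ^ d * 2 ^ q = 54 ^ q * 3 ^ d := by
      rw [show (54 : ℕ) = 27 * 2 by norm_num, mul_pow]; ring
    rw [a3] at e1
    have a4 : (54 : ℕ) ^ q < 64 ^ q := Nat.pow_lt_pow_left (by norm_num) (by omega)
    have a5 : (3 : ℕ) ^ d ≤ 4 ^ d := Nat.pow_le_pow_left (by norm_num) d
    have a6 : 54 ^ q * 3 ^ d < 64 ^ q * 4 ^ d :=
      Nat.mul_lt_mul_of_lt_of_le a4 a5 (by positivity)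
    omega
  have e3 : 2 ^ J < 2 ^ (i + 4 * q + 1) := by
    have a1 := useq_le' t1 j
    have a2 : (2 : ℕ) ^ j ≤ 2 ^ (3 * q + 1) := Nat.pow_le_pow_right (by norm_num) (by omega)
    calc 2 ^ J < 5 * useq t1 j := hj1
      _ ≤ 5 * (2 ^ (3 * q + 1) * t1) := Nat.mul_le_mul_left _ (a1.trans (Nat.mul_le_mul_right _ a2))
      _ = 2 ^ (3 * q + 1) * (5 * t1) := by ring
      _ ≤ 2 ^ (3 * q + 1) * 2 ^ (i + q) := Nat.mul_le_mul_left _ (by omega)
      _ = 2 ^ (i + 4 * q + 1) := by rw [← pow_add]; congr 1; omega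
  have e4 : J < i + 4 * q + 1 := (Nat.pow_lt_pow_iff_right (by norm_num)).1 e3
  omega

/-- **Positive prefix density of the scales with long crossings.** -/
theorem dens (P : PT) (G : Geo) {c0 : ℝ} (h0 : 0 < c0) (N : ℕ)
    (hsq : ∀ n : ℤ, (N : ℤ) ≤ n → c0 ≤ P.p (LRp 0 n 0 n))
    (hhx : ∀ n : ℤ, (N : ℤ) ≤ n → c0 ≤ P.p (HT 0 0 n (-n) n)) :
    ∃ c : ℝ, 0 < c ∧ ∃ j0 : ℕ, ∀ J, j0 ≤ J → J - j0 ≤ 7 * cnt P c j0 J := by
  classical
  have hsq' : P.Sq c0 N := hsq
  have hhx' : P.Hx c0 N := hhx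
  have hc : c0 ≤ 1 := (hsq N le_rfl).trans (P.le_one _)
  obtain ⟨n1, hn1⟩ : ∃ n1 : ℕ, n1 = max (2 * N) 36 := ⟨_, rfl⟩
  have a2 : 2 * N ≤ n1 := by rw [hn1]; exact le_max_left _ _
  have a3 : 36 ≤ n1 := by rw [hn1]; exact le_max_right _ _
  by_cases hex : ∃ n, n1 ≤ n ∧ P.Good c0 n
  · obtain ⟨n2, hn2, hg2⟩ := hex
    have hexi : ∃ i, 5 * n2 ≤ 2 ^ i := ⟨5 * n2, Nat.lt_two_pow_self.le⟩
    set j0 := Nat.find hexi with hj0
    have hj0' : 5 * n2 ≤ 2 ^ j0 := Nat.find_spec hexi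
    refine ⟨cG c0, cG_pos h0, j0, fun J hJ => ?_⟩
    induction J using Nat.strong_induction_on with
    | _ J ih =>
      rcases Nat.eq_or_lt_of_le hJ with h | h
      · omega
      obtain ⟨J', rfl⟩ : ∃ J', J = J' + 1 := ⟨J - 1, by omega⟩
      have hlt : 5 * n2 ≤ 2 ^ J' := hj0'.trans (Nat.pow_le_pow_right (by norm_num) (by omega))
      by_cases hf : cG c0 ≤ P.L (4 * (2 ^ J' : ℕ)) (2 ^ J' : ℕ)
      · have h1 := ih J' (by omega) (by omega)
        have h2 := cnt_split P (cG c0) (a := j0) (b := J') (d := J' + 1) (by omega) (by omega)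
        have h3 := cnt_all P (cG c0) (a := J') (b := J' + 1) (fun j b1 b2 => by
          have : j = J' := by omega
          rw [this]; exact hf)
        omega
      · set n := Nat.findGreatest (fun n => n2 ≤ n ∧ P.Good c0 n) (2 ^ J' / 5) with hn
        have hspec : n2 ≤ n ∧ P.Good c0 n :=
          Nat.findGreatest_spec (P := fun n => n2 ≤ n ∧ P.Good c0 n) (m := n2) (by omega)
            ⟨le_rfl, hg2⟩
        have hnr : n ≤ 2 ^ J' / 5 := Nat.findGreatest_le _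
        obtain ⟨i, hi, hi5, hc'⟩ := step G h0 hc hsq' hhx' (n := n) (J := J') (by omega)
          (by omega) hspec.2 hf (by omega) (fun m m1 m2 hm =>
            Nat.findGreatest_is_greatest (P := fun n => n2 ≤ n ∧ P.Good c0 n) m1 (by omega)
              ⟨by omega, hm⟩)
        have hi0 : j0 ≤ i := Nat.find_min' hexi (by omega)
        have h1 := ih i (by omega) hi0
        have h2 := cnt_split P (cG c0) (a := j0) (b := i) (d := J' + 1) hi0 (by omega)
        have h3 := cnt_mono P (cG c0) (a := i) (b := J') (a' := i) (b' := J' + 1) le_rfl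
          (by omega)
        omega
  · push Not at hex
    have hal : ∀ t, n1 ≤ t → P.al c0 t = 0 := by
      intro t ht
      by_contra hne
      obtain ⟨J, hJ⟩ := next2 (P := P) G h0 hc hhx' t
      obtain ⟨n, g1, _, g3⟩ := hJ t (by omega) (by omega) (by omega)
        (Nat.le_mul_of_pos_right _ (by omega))
      exact hex n (by omega) g3
    set a : ℝ := (c0 / 4) * (c0 / 4) with ha
    have hap : 0 < a := by positivity
    refine ⟨a * (c0 * a) ^ 20, by positivity, 6 * n1 + 6, fun J hJ => ?_⟩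
    rw [cnt_all]
    · omega
    · intro j b1 b2
      have := Nat.lt_two_pow_self (n := j)
      obtain ⟨t, ht⟩ : ∃ t : ℕ, t = 2 ^ j / 6 := ⟨_, rfl⟩
      have h1 := long_of_edge (c0 := c0) G h0 (t := t) (by omega) (hal t (by omega))
      exact ratio4 G h0 hsq' (t := t) (by omega) hap.le h1 (by omega) (by omega)

end Vale.Agent.P153.R2.KPOS.H469
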