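import Mathlib

/-!
# P153, KPOS: plateau scales have positive density (abstract form)

`F`: the fine scales, with positive prefix density. `w m a N`: the probability that there is no
closed circuit between the scales `m` and `a` in the free domain of scale `N`. `plat`: for every
`δ` and `L` a positive proportion of the blocks of length `B` start with a plateau scale.
`no_growth`: no quantity which is at most `C * 2 ^ m` can be multiplied by a large factor `k` at all
the plateau scales.
-/

namespace Vale.Agent.P153.R2.KPOS.H469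

open Finset

/-- Plateau scale `m`: between `a` and `b` (in the free domain of scale `b`), with fine scales `g`
inside the plateau, `b`, and `g'` beyond it, all within `B`. -/
structure IsPlat (F : Set ℕ) (w : ℕ → ℕ → ℕ → ℝ) (δ : ℝ) (L B m a g b g' : ℕ) : Prop where
  ma : m + L ≤ a
  ag : a + L ≤ g
  gb : g + L ≤ b
  bg' : b + L ≤ g'
  top : g' < m + B
  gF : g ∈ F
  bF : b ∈ F
  g'F : g' ∈ F
  small : w m a b ≤ δ

theorem IsPlat.mono {F : Set ℕ} {w : ℕ → ℕ → ℕ → ℝ} {δ : ℝ} {L L' B m a g b g' : ℕ} (hL : L' ≤ L)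
    (h : IsPlat F w δ L B m a g b g') : IsPlat F w δ L' B m a g b g' := by
  obtain ⟨h1, h2, h3, h4, h5, h6, h7, h8, h9⟩ := h
  exact ⟨by omega, by omega, by omega, by omega, h5, h6, h7, h8, h9⟩

open Classical in
/-- Elements of `F` in a block. -/
noncomputable def cnF (F : Set ℕ) (a b : ℕ) : ℕ := ((Ico a b).filter (· ∈ F)).card

/-- Separated elements of a large set of integers. -/
theorem separated (S : Finset ℕ) (L q : ℕ) (h : L * q + 1 ≤ S.card) :
    ∃ f : ℕ → ℕ, (∀ t ≤ q, f t ∈ S) ∧ ∀ t < q, f t + L ≤ f (t + 1) := by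
  classical
  set e := S.orderEmbOfFin rfl with he
  refine ⟨fun t => if ht : L * t < S.card then e ⟨L * t, ht⟩ else 0, fun t ht => ?_,
    fun t ht => ?_⟩
  · have h1 : L * t < S.card := by
      have := Nat.mul_le_mul_left L ht
      omega
    simp only [dif_pos h1]
    exact Finset.orderEmbOfFin_mem S rfl _
  · have h1 : L * (t + 1) < S.card := by
      have := Nat.mul_le_mul_left L ht
      simp only [Nat.succ_eq_add_one] at this
      omega
    have h0 : L * t < S.card := lt_of_le_of_lt (Nat.mul_le_mul_left L (Nat.le_succ t)) h1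
    simp only [dif_pos h0, dif_pos h1]
    have hmono : StrictMono e := e.strictMono
    -- a strictly increasing function on `Fin` increases at least as much as its index
    have key : ∀ d : ℕ, ∀ i (hi : i + d < S.card),
        e ⟨i, by omega⟩ + d ≤ e ⟨i + d, hi⟩ := by
      intro d
      induction d with
      | zero => intro i hi; simp
      | succ d ih =>
        intro i hi
        have h2 := ih i (by omega)
        have h3 : e ⟨i + d, by omega⟩ < e ⟨i + (d + 1), hi⟩ :=
          hmono (by rw [Fin.lt_def]; simp only; omega)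
        omega
    have h4 := key L (L * t) (by rw [← Nat.mul_succ]; exact h1)
    have h5 : (⟨L * t + L, by rw [← Nat.mul_succ]; exact h1⟩ : Fin S.card) =
        ⟨L * (t + 1), h1⟩ := by
      rw [Fin.mk.injEq]; ring
    rw [h5] at h4
    exact h4

/-- The telescoping step: a plateau in a rich block. -/
theorem plat_block (F : Set ℕ) (w : ℕ → ℕ → ℕ → ℝ) (c δ : ℝ) (hc : 0 < c)
    (hw0 : ∀ m a N, 0 ≤ w m a N) (hw1 : ∀ m a N, w m a N ≤ 1) {L : ℕ}
    (hstep : ∀ m a b N, m + L ≤ a → a ≤ b → b ∈ F → b + 1 ≤ N →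
      w m (b + 1) N ≤ w m a N - c * w m a b)
    {n B m : ℕ} (hn : 1 < c * δ * n) {f : ℕ → ℕ} (hf : ∀ t ≤ 2 * n + 3, f t ∈ F)
    (hm : m ≤ f 0) (hB : f (2 * n + 3) < m + B)
    (hs : ∀ t < 2 * n + 3, f t + (L + 1) ≤ f (t + 1)) :
    ∃ a g b g', IsPlat F w δ L B m a g b g' := by
  by_contra hcon
  push Not at hcon
  have hmono : ∀ s t, s ≤ t → t ≤ 2 * n + 3 → f s ≤ f t := by
    intro s t hst
    induction hst with
    | refl => intro _; exact le_rfl
    | @step t _ ih =>
      intro ht
      have h1 : f t + (L + 1) ≤ f (Nat.succ t) := hs t (by omega)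
      have h2 := ih (by omega)
      omega
  have hs' : ∀ s t, t = s + 1 → s < 2 * n + 3 → f s + (L + 1) ≤ f t := by
    rintro s t rfl h
    exact hs s h
  have hbig : ∀ i, i < n → δ < w m (f (2 * i + 1) + 1) (f (2 * i + 3)) := by
    intro i hi
    by_contra hle
    push Not at hle
    have h1 := hs' (2 * i + 1) (2 * i + 2) rfl (by omega)
    have h2 := hs' (2 * i + 2) (2 * i + 3) rfl (by omega)
    have h3 := hs' (2 * i + 3) (2 * i + 4) rfl (by omega)
    have h0 := hs' 0 1 rfl (by omega)
    have h4 := hmono 1 (2 * i + 1) (by omega) (by omega)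
    have h5 := hmono (2 * i + 4) (2 * n + 3) (by omega) le_rfl
    exact hcon (f (2 * i + 1) + 1) (f (2 * i + 2)) (f (2 * i + 3)) (f (2 * i + 4))
      ⟨by omega, by omega, by omega, by omega, by omega,
        hf _ (by omega), hf _ (by omega), hf _ (by omega), hle⟩
  have htel : ∀ i, i ≤ n → w m (f (2 * i + 1) + 1) (m + B) + c * δ * i ≤ 1 := by
    intro i
    induction i with
    | zero => intro _; simpa using hw1 _ _ _
    | succ i ih =>
      intro hi
      have h1 := ih (by omega)
      have h2 := hbig i (by omega)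
      have h3 := hs' (2 * i + 1) (2 * i + 2) rfl (by omega)
      have h4 := hs' (2 * i + 2) (2 * i + 3) rfl (by omega)
      have h6 := hmono 0 (2 * i + 1) (by omega) (by omega)
      have h7 := hmono (2 * i + 3) (2 * n + 3) (by omega) le_rfl
      have h6' := hs' 0 1 rfl (by omega)
      have h6'' := hmono 1 (2 * i + 1) (by omega) (by omega)
      have h5 := hstep m (f (2 * i + 1) + 1) (f (2 * i + 3)) (m + B) (by omega) (by omega)
        (hf _ (by omega)) (by omega)
      have h8 : c * δ ≤ c * w m (f (2 * i + 1) + 1) (f (2 * i + 3)) :=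
        mul_le_mul_of_nonneg_left h2.le hc.le
      have e : 2 * (i + 1) + 1 = 2 * i + 3 := by ring
      rw [e]
      push_cast
      linarith
  have h1 := htel n le_rfl
  have h2 := hw0 m (f (2 * n + 1) + 1) (m + B)
  linarith

/-- **Plateau scales have positive density.** -/
theorem plat (F : Set ℕ) (j0 D : ℕ) (hF : ∀ J, j0 ≤ J → J - j0 ≤ D * cnF F j0 J)
    (w : ℕ → ℕ → ℕ → ℝ) (c δ : ℝ) (hc : 0 < c) (hδ : 0 < δ)
    (hw0 : ∀ m a N, 0 ≤ w m a N) (hw1 : ∀ m a N, w m a N ≤ 1) (L : ℕ)
    (hstep : ∀ m a b N, m + L ≤ a → a ≤ b → b ∈ F → b + 1 ≤ N →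
      w m (b + 1) N ≤ w m a N - c * w m a b) :
    ∃ B : ℕ, 1 ≤ B ∧ ∀ K : ℕ, ∃ S : Finset ℕ, S ⊆ range K ∧ K ≤ 2 * D * S.card ∧
      ∀ i ∈ S, ∃ a g b g', IsPlat F w δ L B (j0 + i * B) a g b g' := by
  classical
  obtain ⟨n, hn⟩ := exists_nat_gt (1 / (c * δ))
  have hn' : 1 < c * δ * n := by
    rw [div_lt_iff₀ (by positivity)] at hn
    linarith
  have hD : 1 ≤ D := by
    rcases Nat.eq_zero_or_pos D with h | h
    · have := hF (j0 + 1) (by omega)
      rw [h] at this
      omega
    · exact h
  obtain ⟨q, hq⟩ : ∃ q, q = (L + 1) * (2 * n + 3) + 1 := ⟨_, rfl⟩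
  have hq1 : 1 ≤ q := by omega
  refine ⟨2 * D * q, Nat.mul_pos (by omega) hq1, fun K => ?_⟩
  obtain ⟨B, hB⟩ : ∃ B, B = 2 * D * q := ⟨_, rfl⟩
  rw [← hB]
  have hB1 : 1 ≤ B := by rw [hB]; exact Nat.mul_pos (by omega) hq1
  set S := (range K).filter fun i => q ≤ cnF F (j0 + i * B) (j0 + (i + 1) * B) with hS
  refine ⟨S, filter_subset _ _, ?_, ?_⟩
  · -- counting
    have hsum : ∀ K : ℕ, cnF F j0 (j0 + K * B) =
        ∑ i ∈ range K, cnF F (j0 + i * B) (j0 + (i + 1) * B) := by
      intro K
      induction K with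
      | zero => simp [cnF]
      | succ K ih =>
        rw [sum_range_succ, ← ih]
        unfold cnF
        have h1 : j0 ≤ j0 + K * B := by omega
        have h2 : j0 + K * B ≤ j0 + (K + 1) * B := by
          have : K * B ≤ (K + 1) * B := Nat.mul_le_mul_right _ (by omega)
          omega
        rw [← Finset.Ico_union_Ico_eq_Ico h1 h2, Finset.filter_union,
          Finset.card_union_of_disjoint]
        exact Finset.disjoint_filter_filter (Finset.Ico_disjoint_Ico_consecutive _ _ _)
    have h1 := hF (j0 + K * B) (by omega)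
    rw [hsum K, Nat.add_sub_cancel_left] at h1
    have h2 : ∑ i ∈ range K, cnF F (j0 + i * B) (j0 + (i + 1) * B) ≤
        ∑ i ∈ range K, ((if i ∈ S then B else 0) + q) := by
      refine sum_le_sum fun i hi => ?_
      by_cases hiS : i ∈ S
      · rw [if_pos hiS]
        have : cnF F (j0 + i * B) (j0 + (i + 1) * B) ≤ B := by
          unfold cnF
          refine (card_filter_le _ _).trans ?_
          rw [Nat.card_Ico]
          have : (i + 1) * B = i * B + B := by ring
          omega
        omega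
      · rw [if_neg hiS]
        have : ¬ q ≤ cnF F (j0 + i * B) (j0 + (i + 1) * B) := fun h =>
          hiS (by rw [hS, mem_filter]; exact ⟨hi, h⟩)
        omega
    have h3 : ∑ i ∈ range K, ((if i ∈ S then B else 0) + q) = S.card * B + K * q := by
      rw [sum_add_distrib, sum_const, card_range, smul_eq_mul, ← sum_filter]
      have : (range K).filter (fun i => i ∈ S) = S := by
        ext i
        rw [mem_filter]
        exact ⟨fun h => h.2, fun h => ⟨(filter_subset _ _ h), h⟩⟩
      rw [this, sum_const, smul_eq_mul]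
    have h4 : K * B ≤ D * (S.card * B + K * q) :=
      h1.trans (Nat.mul_le_mul_left _ (h2.trans h3.le))
    have h5 : K * B = 2 * (D * (K * q)) := by rw [hB]; ring
    have h6 : D * (K * q) ≤ D * (S.card * B) := by
      have : D * (S.card * B + K * q) = D * (S.card * B) + D * (K * q) := by ring
      omega
    have h7 : (D * q) * K ≤ (D * q) * (2 * D * S.card) := by
      calc (D * q) * K = D * (K * q) := by ring
        _ ≤ D * (S.card * B) := h6
        _ = (D * q) * (2 * D * S.card) := by rw [hB]; ring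
    exact Nat.le_of_mul_le_mul_left h7 (Nat.mul_pos (by omega) hq1)
  · intro i hi
    rw [hS, mem_filter] at hi
    obtain ⟨f, hf1, hf2⟩ := separated ((Ico (j0 + i * B) (j0 + (i + 1) * B)).filter (· ∈ F))
      (L + 1) (2 * n + 3) (by
        have := hi.2
        unfold cnF at this
        omega)
    have hmem : ∀ t ≤ 2 * n + 3, (j0 + i * B ≤ f t ∧ f t < j0 + (i + 1) * B) ∧ f t ∈ F := by
      intro t ht
      have := hf1 t ht
      rw [mem_filter, mem_Ico] at this
      exact this
    refine plat_block F w c δ hc hw0 hw1 hstep hn' (f := f) (fun t ht => (hmem t ht).2)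
      (hmem 0 (by omega)).1.1 ?_ hf2
    have h1 := (hmem (2 * n + 3) le_rfl).1.2
    have h2 : (i + 1) * B = i * B + B := by ring
    omega

/-- A quantity bounded by `C * 2 ^ m` cannot be multiplied by `k` at every element of a set of
positive density. -/
theorem no_growth (j0 B D C m0 k : ℕ) (hB : 1 ≤ B) (hk : 2 ^ (2 * D * B) ≤ k) (hD : 1 ≤ D)
    (Pl : ℕ → Prop) (hPl : ∀ K : ℕ, ∃ S : Finset ℕ, S ⊆ range K ∧ K ≤ D * S.card ∧
      ∀ i ∈ S, Pl (j0 + i * B))
    (A : ℕ → ℕ) (hA1 : ∀ m, m0 ≤ m → Pl m → 1 ≤ A m) (hA2 : ∀ m, m0 ≤ m → Pl m → A m ≤ C * 2 ^ m)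
    (hA3 : ∀ m M, m0 ≤ m → m < M → Pl m → Pl M → k * A m ≤ A M) : False := by
  classical
  -- growth along a finite set
  have hk0 : 1 ≤ k := le_trans (Nat.one_le_two_pow) hk
  have grow : ∀ s : ℕ, ∀ S : Finset ℕ, S.card = s + 1 → (∀ i ∈ S, m0 ≤ j0 + i * B ∧
      Pl (j0 + i * B)) → ∃ i ∈ S, (∀ j ∈ S, j ≤ i) ∧ k ^ s ≤ A (j0 + i * B) := by
    intro s
    induction s with
    | zero =>
      intro S hS h
      obtain ⟨i, hi⟩ := Finset.card_eq_one.1 hS
      refine ⟨i, by rw [hi]; exact mem_singleton_self i, fun j hj => ?_, ?_⟩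
      · rw [hi, mem_singleton] at hj
        exact hj.le
      · have := h i (by rw [hi]; exact mem_singleton_self i)
        simpa using hA1 _ this.1 this.2
    | succ s ih =>
      intro S hS h
      have hne : S.Nonempty := by
        rw [← Finset.card_pos]; omega
      set M := S.max' hne with hM
      have hMS : M ∈ S := S.max'_mem hne
      obtain ⟨i, hi, hi2, hi3⟩ := ih (S.erase M) (by rw [card_erase_of_mem hMS]; omega)
        (fun j hj => h j (mem_of_mem_erase hj))
      have hiS := mem_of_mem_erase hi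
      have hlt : i < M := lt_of_le_of_ne (S.le_max' i hiS) (ne_of_mem_erase hi)
      refine ⟨M, hMS, fun j hj => S.le_max' j hj, ?_⟩
      have h1 := hA3 (j0 + i * B) (j0 + M * B) (h i hiS).1 (by
        have : i * B < M * B := Nat.mul_lt_mul_of_pos_right hlt (by omega)
        omega) (h i hiS).2 (h M hMS).2
      calc k ^ (s + 1) = k * k ^ s := by ring
        _ ≤ k * A (j0 + i * B) := Nat.mul_le_mul_left _ hi3
        _ ≤ _ := h1
  -- choose `K` large
  obtain ⟨K, hK⟩ : ∃ K, K = D * (C + j0 + 2 * m0 + 3) := ⟨_, rfl⟩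
  obtain ⟨S, hSK, hS, hSP⟩ := hPl K
  set S' := S.filter fun i => m0 ≤ i with hS'
  have hcard : S.card ≤ S'.card + m0 := by
    have h1 : S ⊆ S' ∪ range m0 := by
      intro i hi
      rw [mem_union, hS', mem_filter, mem_range]
      by_cases h : m0 ≤ i
      · exact Or.inl ⟨hi, h⟩
      · exact Or.inr (by omega)
    have h2 := (card_le_card h1).trans (card_union_le _ _)
    rwa [card_range] at h2
  have hbig : C + j0 + 2 * m0 + 3 ≤ S.card := by
    rw [hK] at hS
    exact Nat.le_of_mul_le_mul_left hS (by omega)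
  obtain ⟨s, hs⟩ : ∃ s, S'.card = s + 1 := ⟨S'.card - 1, by omega⟩
  obtain ⟨i, hi, _, hi3⟩ := grow s S' hs (fun i hi => by
    rw [hS', mem_filter] at hi
    refine ⟨?_, hSP i hi.1⟩
    have : i ≤ i * B := Nat.le_mul_of_pos_right _ (by omega)
    omega)
  rw [hS', mem_filter] at hi
  have hiK := mem_range.1 (hSK hi.1)
  have h1 := hA2 (j0 + i * B) (by
    have : i ≤ i * B := Nat.le_mul_of_pos_right _ (by omega)
    omega) (hSP i hi.1)
  have h2 : K * B ≤ D * B * (s + 1 + m0) := by
    calc K * B ≤ D * S.card * B := Nat.mul_le_mul_right _ hS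
      _ ≤ D * (s + 1 + m0) * B := Nat.mul_le_mul_right _ (Nat.mul_le_mul_left _ (by omega))
      _ = _ := by ring
  have h3 : 2 ^ (2 * D * B * s) ≤ 2 ^ (C + (j0 + D * B * (s + 1 + m0))) := by
    calc 2 ^ (2 * D * B * s) = (2 ^ (2 * D * B)) ^ s := by rw [pow_mul]
      _ ≤ k ^ s := Nat.pow_le_pow_left hk s
      _ ≤ C * 2 ^ (j0 + i * B) := hi3.trans h1
      _ ≤ 2 ^ C * 2 ^ (j0 + D * B * (s + 1 + m0)) := by
        refine Nat.mul_le_mul Nat.lt_two_pow_self.le (Nat.pow_le_pow_right (by norm_num) ?_)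
        have : i * B ≤ K * B := Nat.mul_le_mul_right _ hiK.le
        omega
      _ = _ := by rw [← pow_add]
  have h4 : 2 * D * B * s ≤ C + (j0 + D * B * (s + 1 + m0)) :=
    (Nat.pow_le_pow_iff_right (by norm_num)).1 h3
  have h5 : 1 ≤ D * B := Nat.mul_pos hD hB
  have h6 : D * B * s ≤ C + j0 + D * B * (1 + m0) := by
    have e1 : 2 * D * B * s = D * B * s + D * B * s := by ring
    have e2 : D * B * (s + 1 + m0) = D * B * s + D * B * (1 + m0) := by ring
    omega
  have h7 : s ≤ C + j0 + (1 + m0) := by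
    by_contra hcon
    push Not at hcon
    obtain ⟨d, hd⟩ : ∃ d, s = C + j0 + (1 + m0) + (d + 1) := ⟨s - (C + j0 + (1 + m0)) - 1, by omega⟩
    rw [hd] at h6
    have e : D * B * (C + j0 + (1 + m0) + (d + 1)) =
        D * B * (C + j0 + (d + 1)) + D * B * (1 + m0) := by ring
    have : C + j0 + (d + 1) ≤ D * B * (C + j0 + (d + 1)) := Nat.le_mul_of_pos_left _ h5
    omega
  omega

end Vale.Agent.P153.R2.KPOS.H469
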