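import Vale.Agent.P153.R2.KPOS.H469.Plateau
import Vale.Agent.P153.R2.KPOS.H398.Tr

/-!
# P153, KPOS: the plateau scales in the form used by the assembly
-/

namespace Vale.Agent.P153.R2.KPOS.H469

open MeasureTheory Relation
open Vale.Agent.P153 Vale.Agent.P153.R2
open Vale.Agent.P153.F.RSW (Ann pW)
open Vale.Agent.P153.A (IsQ)

/-- The box with the free data. -/
def Dn (N : ℕ) : Set Pt := bx 0 (2 ^ N - 2 : ℤ)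

/-- The probability that the box `2 ^ m` is joined to the complement of the box `2 ^ a` by edges
which are not closed (levels divisible by `8`). -/
noncomputable def wT (m a N : ℕ) : ℝ :=
  Pr (Cfg (Dn N) (frd (Dn N) 0)) {h | ∃ x ∈ bx 0 (2 ^ m : ℤ), x ∈ Tr.ClC (bx 0 (2 ^ a : ℤ))ᶜ h}

theorem clC_eq (T : Set Pt) (h : Hg) : ClC T h = Tr.ClC T h := rfl

theorem wT_eq {m a N : ℕ} (hN : 1 ≤ N) : wT m a N = wS 1 m a N := by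
  rw [← wS_eq hN]
  unfold wT Dn
  have e : ((1 : ℕ) * 2 ^ m : ℤ) = 2 ^ m := by push_cast; ring
  rw [e]
  refine Pr_congr fun h _ => ?_
  show (∃ x ∈ bx 0 (2 ^ m : ℤ), x ∈ Tr.ClC (bx 0 (2 ^ a : ℤ))ᶜ h) ↔
    ¬ ∀ y ∈ ClC (bx (0, 0) (2 ^ a : ℤ))ᶜ h, y ∉ bx (0, 0) (2 ^ m : ℤ)
  push Not
  exact ⟨fun ⟨x, h1, h2⟩ => ⟨x, h2, h1⟩, fun ⟨x, h1, h2⟩ => ⟨x, h2, h1⟩⟩

/-- **Plateau scales have positive density.** -/
theorem platQ {Q : Measure A.Om} (hQ : IsQ Q) : ∃ c : ℝ, 0 < c ∧ ∃ D : ℕ, 1 ≤ D ∧ ∃ j0 : ℕ,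
    ∀ δ : ℝ, 0 < δ → ∀ L : ℕ, ∃ B : ℕ, 1 ≤ B ∧ ∀ K : ℕ, ∃ S : Finset ℕ, S ⊆ Finset.range K ∧
      K ≤ D * S.card ∧ ∀ i ∈ S, ∃ a g b g', IsPlat {j | FineS Q c j} wT δ L B (j0 + i * B)
        a g b g' := by
  obtain ⟨c, hc, j0, h⟩ := plateau hQ
  refine ⟨c, hc, 14, by norm_num, j0, fun δ hδ L => ?_⟩
  obtain ⟨B, hB, h2⟩ := h δ hδ (L + 1) 1
  refine ⟨B, hB, fun K => ?_⟩
  obtain ⟨S, hS, hS2, hS3⟩ := h2 K
  refine ⟨S, hS, hS2, fun i hi => ?_⟩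
  obtain ⟨a, g, b, g', hp⟩ := hS3 i hi
  obtain ⟨p1, p2, p3, p4, p5, p6, p7, p8, p9⟩ := hp
  refine ⟨a, g, b, g', ⟨by omega, by omega, by omega, by omega, p5, p6, p7, p8, ?_⟩⟩
  rw [wT_eq (by omega)]
  exact p9

end Vale.Agent.P153.R2.KPOS.H469
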