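import Vale.Agent.P153.R2.KPOS.H469.DensQ
import Vale.Agent.P153.R2.KPOS.H469.Cond
import Vale.Agent.P153.R2.KPOS.H469.Plat
import Vale.Agent.P153.R2.F2A.LcA

/-!
# P153, KPOS: circuits of closed edges (levels divisible by 8) in boxes with free data

`OpC`: steps which are not closed edges; `SepC z r1 r2`: the closed edges separate `bx z r1` from
the complement of `bx z r2`. `Pr_sep`: the probability of `SepC` in a box with free data in terms of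
the first spin. `sep_fine`: lower bound at the fine scales. `plateau`: positive density of the
plateau scales.
-/

namespace Vale.Agent.P153.R2.KPOS.H469

open Set Relation MeasureTheory
open Vale.Agent.P153 Vale.Agent.P153.R2 Vale.Agent.P153.R2.F2A
open Vale.Agent.P153.Topo (Conn)
open Vale.Agent.P153.F.X (Zr stp)
open Vale.Agent.P153.F.RSW (Ann Mid Wp v1 v2 pW iw)
open Vale.Agent.P153.F.X.PosT (mid_adj v_add)
open Vale.Agent.P153.A (Sp IsQ enc tau E1 inn)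
open scoped Classical

/-- A step which is not a closed edge of a level divisible by `8`. -/
def OpC (h : Hg) (x y : Pt) : Prop :=
  Adj x y ∧ ¬ ∃ m : ℤ, 8 ∣ m ∧ |h x - m| = 1 ∧ |h y - m| = 1

/-- The vertices joined to `T` by such steps. -/
def ClC (T : Set Pt) (h : Hg) : Set Pt := {y | ∃ x ∈ T, ReflTransGen (OpC h) x y}

/-- The closed edges separate `bx z r1` from the complement of `bx z r2`. -/
def SepC (z : Pt) (r1 r2 : ℤ) : Set Hg := {h | ∀ y ∈ ClC (bx z r2)ᶜ h, y ∉ bx z r1}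

/-- The closed edges of levels divisible by `8`. -/
def clE (h : Hg) : Set Pt :=
  {w | ∃ x y, Adj x y ∧ w = x + y ∧ ∃ m : ℤ, 8 ∣ m ∧ |h x - m| = 1 ∧ |h y - m| = 1}

theorem mem_clE {h : Hg} {x y : Pt} (hxy : Adj x y) :
    x + y ∈ clE h ↔ ∃ m : ℤ, 8 ∣ m ∧ |h x - m| = 1 ∧ |h y - m| = 1 := by
  constructor
  · rintro ⟨x', y', hxy', he, m, hm, h1, h2⟩
    rcases F.X.LE.edge_eq hxy hxy' he with ⟨rfl, rfl⟩ | ⟨rfl, rfl⟩
    · exact ⟨m, hm, h1, h2⟩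
    · exact ⟨m, hm, h2, h1⟩
  · rintro ⟨m, hm, h1, h2⟩
    exact ⟨x, y, hxy, rfl, m, hm, h1, h2⟩

theorem opC_iff {h : Hg} {x y : Pt} : OpC h x y ↔ stp (clE h) x y := by
  unfold OpC stp
  constructor
  · rintro ⟨h1, h2⟩
    exact ⟨h1, fun h3 => h2 ((mem_clE h1).1 h3)⟩
  · rintro ⟨h1, h2⟩
    exact ⟨h1, fun h3 => h2 ((mem_clE h1).2 h3)⟩

theorem opC_symm {h : Hg} {x y : Pt} (hxy : OpC h x y) : OpC h y x :=
  ⟨Topo.adj_symm hxy.1, fun ⟨m, h0, h1, h2⟩ => hxy.2 ⟨m, h0, h2, h1⟩⟩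

theorem rtgC_symm {h : Hg} {x y : Pt} (hp : ReflTransGen (OpC h) x y) :
    ReflTransGen (OpC h) y x := by
  induction hp with
  | refl => exact .refl
  | tail _ h2 ih => exact ReflTransGen.head (opC_symm h2) ih

theorem sepC_iff {h : Hg} {z : Pt} {r1 r2 : ℤ} :
    h ∈ SepC z r1 r2 ↔ F.X.Conf (clE h) (bx z r1) (bx z r2) := by
  constructor
  · intro hs x hx y hp
    by_contra hy
    refine hs x ⟨y, hy, rtgC_symm ?_⟩ hx
    exact ReflTransGen.mono (fun _ _ h1 => opC_iff.2 h1) _ _ hp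
  · rintro hc y ⟨x, hx, hp⟩ hy
    refine hx (hc y hy x ?_)
    exact ReflTransGen.mono (fun _ _ h1 => opC_iff.1 h1) _ _ (rtgC_symm hp)

theorem conf_mono {B B' : Set Pt} (h : B ⊆ B') {S S' T T' : Set Pt} (hS : S' ⊆ S) (hT : T ⊆ T')
    (hc : F.X.Conf B S T) : F.X.Conf B' S' T' := fun x hx y hp =>
  hT (hc x (hS hx) y (ReflTransGen.mono (fun _ _ h1 => ⟨h1.1, fun h2 => h1.2 (h h2)⟩) _ _ hp))

theorem bx_mono {z : Pt} {r r' : ℤ} (h : r ≤ r') : bx z r ⊆ bx z r' :=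
  fun _ hx => ⟨hx.1.trans h, hx.2.trans h⟩

/-! ### The first spin -/

theorem adj_mid {x y : Pt} (h : Adj x y) : x + y ∈ Mid := by
  rw [Topo.adj_iff] at h
  show Odd (x + y).1 ∨ Odd (x + y).2
  rw [Int.odd_iff, Int.odd_iff, Prod.fst_add, Prod.snd_add]
  omega

theorem mem_Wp {s : Sp} {x y : Pt} (h : Adj x y) : x + y ∈ Wp s ↔ s x = true ∧ s y = true := by
  have h1 := F.X.LE.edge_eq (mid_adj (adj_mid h)) h (v_add (x + y)).symm
  constructor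
  · rintro ⟨-, h2, h3⟩
    rcases h1 with ⟨h4, h5⟩ | ⟨h4, h5⟩
    · exact ⟨(congrArg s h4).trans h2, (congrArg s h5).trans h3⟩
    · exact ⟨(congrArg s h4).trans h3, (congrArg s h5).trans h2⟩
  · rintro ⟨h2, h3⟩
    refine ⟨adj_mid h, ?_⟩
    rcases h1 with ⟨h4, h5⟩ | ⟨h4, h5⟩
    · exact ⟨(congrArg s h4).symm.trans h2, (congrArg s h5).symm.trans h3⟩
    · exact ⟨(congrArg s h5).symm.trans h3, (congrArg s h4).symm.trans h2⟩

theorem clE_hh {φ : Pt → ℤ} (hφ : ∀ x y, Adj x y → |φ x - φ y| ≤ 1) :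
    clE (hh φ) = Wp (tf φ) := by
  have key : ∀ x y, Adj x y → ((∃ m : ℤ, 8 ∣ m ∧ |hh φ x - m| = 1 ∧ |hh φ y - m| = 1) ↔
      tf φ x = true ∧ tf φ y = true) := by
    intro x y hxy
    have h1 := abs_le.1 (hφ x y hxy)
    rw [tf_iff, tf_iff]
    unfold hh
    constructor
    · rintro ⟨m, ⟨k, rfl⟩, h2, h3⟩
      rw [abs_eq (by norm_num)] at h2 h3
      omega
    · rintro ⟨h2, h3⟩
      refine ⟨8 * (-(φ x / 4)), ⟨_, rfl⟩, ?_, ?_⟩
      · rw [abs_eq (by norm_num)]; omega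
      · rw [abs_eq (by norm_num)]; omega
  ext w
  constructor
  · rintro ⟨x, y, hxy, rfl, hm⟩
    exact (mem_Wp hxy).2 ((key x y hxy).1 hm)
  · intro hw
    have h1 := mid_adj hw.1
    have h2 := v_add w
    rw [h2] at hw
    rw [h2]
    exact (mem_clE h1).2 ((key _ _ h1).2 ((mem_Wp h1).1 hw))

/-- Events of closed edges in a box with free data. -/
theorem Pr_clE {p : Pt} {R : ℤ} (hR : 0 ≤ R) (E : Set Pt → Prop) :
    Pr (Cfg (bx p R) (frd (bx p R) 0)) {h | E (clE h)} = E1 (bD p R) (iw E) := by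
  have fin := Cfg_finite (Dat_frd (bx_finite p R) 0)
  rw [Pr_eq_Ex fin, Ex_bij hh (bij_bD (p := p) (r := R)), Ex_Ht hR]
  refine Ex_congr fun φ hφ => ?_
  have h1 : clE (hh φ) = Wp (tf φ) := clE_hh hφ.2
  unfold ind iw
  show (if E (clE (hh φ)) then (1 : ℝ) else 0) = _
  rw [h1]

/-- The separation as an event of the closed edges. -/
def EC (z : Pt) (r1 r2 : ℤ) (B : Set Pt) : Prop := F.X.Conf B (bx z r1) (bx z r2)

theorem EC_inc (z : Pt) (r1 r2 : ℤ) : F.RSW.Inc (EC z r1 r2) :=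
  fun _ _ hST h => conf_mono hST (fun _ h => h) (fun _ h => h) h

theorem Pr_sep {p : Pt} {R : ℤ} (hR : 0 ≤ R) (z : Pt) (r1 r2 : ℤ) :
    Pr (Cfg (bx p R) (frd (bx p R) 0)) (SepC z r1 r2) = E1 (bD p R) (iw (EC z r1 r2)) := by
  rw [← Pr_clE hR]
  exact Pr_congr fun h _ => sepC_iff

theorem ann_EC {z : Pt} {s r1 r2 : ℤ} (hs : 1 ≤ s) (h1 : r1 ≤ s) (h2 : 2 * s ≤ r2) {t : Sp}
    (h : Ann z.1 z.2 s (Wp t)) : EC z r1 r2 (Wp t) := by
  refine conf_mono (fun _ h => h) (bx_mono h1) (bx_mono h2) (F.X.s_conf z s (Wp t) hs ?_)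
  unfold Zr
  rwa [Set.inter_eq_left.2 (F.RSW.Wp_sub t)]

/-! ### The functional `E1` -/

theorem E1_def (D : Finset Pt) (f : Sp → ℝ) : E1 D f = Ex (A.Cf D) (fun ω => f (tau ω)) := rfl

theorem E1_mono (D : Finset Pt) {f g : Sp → ℝ} (h : ∀ t, f t ≤ g t) : E1 D f ≤ E1 D g := by
  rw [E1_def, E1_def]
  exact Ex_mono fun ω _ => h _

theorem E1_sub (D : Finset Pt) (f g : Sp → ℝ) : E1 D (fun t => f t - g t) = E1 D f - E1 D g := by
  rw [E1_def, E1_def, E1_def]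
  exact Ex_sub _ _

theorem E1_one (D : Finset Pt) : E1 D (fun _ => 1) = 1 := by
  rw [E1_def]
  exact Ex_const (A.s_e1 D).2.1 (A.s_e1 D).2.2.1 1

theorem iw_nonneg (E : Set Pt → Prop) (t : Sp) : 0 ≤ iw E t := by
  unfold iw; split_ifs <;> norm_num

theorem iw_le_one (E : Set Pt → Prop) (t : Sp) : iw E t ≤ 1 := by
  unfold iw; split_ifs <;> norm_num

theorem E1_iw (D : Finset Pt) (E : Set Pt → Prop) : 0 ≤ E1 D (iw E) ∧ E1 D (iw E) ≤ 1 := by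
  constructor
  · rw [E1_def]
    exact Ex_nonneg fun ω _ => iw_nonneg _ _
  · rw [← E1_one D]
    exact E1_mono D (iw_le_one E)

/-- **(T1)** Separation at the scales with circuits in the plane. -/
theorem sep_ge {Q : Measure A.Om} (hQ : IsQ Q) {p : Pt} {R : ℤ} (hR : 0 ≤ R) {z : Pt} {s r1 r2 : ℤ}
    (hs : 1 ≤ s) (h1 : r1 ≤ s) (h2 : 2 * s ≤ r2) :
    pW Q (Ann z.1 z.2 s) ≤ Pr (Cfg (bx p R) (frd (bx p R) 0)) (SepC z r1 r2) := by
  rw [Pr_sep hR]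
  refine (E1_ge hQ (F.RSW.IL_Ann z.1 z.2 s) (bD p R)).trans (E1_mono _ fun t => ?_)
  unfold iw
  by_cases h : Ann z.1 z.2 s (Wp t)
  · rw [if_pos h, if_pos (ann_EC hs h1 h2 h)]
  · rw [if_neg h]; split_ifs <;> norm_num

/-! ### Telescoping -/

theorem bD_mono {p : Pt} {r R : ℤ} (h : r ≤ R) : bD p r ⊆ bD p R := by
  intro x hx
  rw [mem_bD] at hx ⊢
  rcases hx with hx | ⟨hx, y, hy, hxy⟩
  · exact Or.inl (bx_mono h hx)
  · by_cases hx' : x ∈ bx p R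
    · exact Or.inl hx'
    · exact Or.inr ⟨hx', y, bx_mono h hy, hxy⟩

theorem inn_bD {p : Pt} {r : ℤ} {x : Pt} (hx : x ∈ inn (bD p r)) : x ∈ bx p r := by
  by_contra h
  obtain ⟨w, hw, hw'⟩ := ebd_out h
  exact hw' (mem_bD.1 (hx.2 w hw))

/-- The circuit event depends only on the spins off the smaller box. -/
theorem ann_off {z : Pt} {s : ℤ} (hs : 1 ≤ s) {a b : Sp} (h : ∀ x, x ∉ bx z (s - 2) → a x = b x) :
    iw (Ann z.1 z.2 s) a = iw (Ann z.1 z.2 s) b := by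
  obtain ⟨-, hf⟩ := F.X.s_loc z s hs
  obtain ⟨Λ, hΛ, hl⟩ := hf.loc
  have h1 := hl (Wp a) (Wp b) (fun w hw => by
    obtain ⟨hw1, hw2⟩ := hΛ w hw
    obtain ⟨x, hx, y, hy, hxy, rfl⟩ := hw1
    have hnot : ¬ (x ∈ bx z (s - 1) ∧ y ∈ bx z (s - 1)) := fun h3 =>
      hw2 ⟨x, h3.1, y, h3.2, hxy, rfl⟩
    have hadj := Topo.adj_iff.1 hxy
    have hx' : x ∉ bx z (s - 2) := fun h3 => hnot (by
      obtain ⟨h4, h5⟩ := h3
      rw [abs_le] at h4 h5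
      constructor
      · constructor <;> rw [abs_le] <;> omega
      · constructor <;> rw [abs_le] <;> omega)
    have hy' : y ∉ bx z (s - 2) := fun h3 => hnot (by
      obtain ⟨h4, h5⟩ := h3
      rw [abs_le] at h4 h5
      constructor
      · constructor <;> rw [abs_le] <;> omega
      · constructor <;> rw [abs_le] <;> omega)
    rw [mem_Wp hxy, mem_Wp hxy, h x hx', h y hy'])
  have e : ∀ t : Sp, F.X.ind (Zr z s) (Wp t) = iw (Ann z.1 z.2 s) t := by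
    intro t
    unfold F.X.ind iw Zr
    rw [Set.inter_eq_left.2 (F.RSW.Wp_sub t)]
  rw [← e, ← e]
  exact h1

/-- The probability that the closed edges do not separate `Λ 2 ^ m` from `2 ^ a` in the box `2 ^ N`
with free data. -/
noncomputable def wS (Λ m a N : ℕ) : ℝ :=
  1 - E1 (bD (0, 0) (2 ^ N - 2 : ℤ)) (iw (EC (0, 0) (Λ * 2 ^ m : ℤ) (2 ^ a : ℤ)))

theorem wS_step {Q : Measure A.Om} (hQ : IsQ Q) {c : ℝ} {Λ L m a b N : ℕ} (hL : Λ ≤ 2 ^ L)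
    (hma : m + L ≤ a) (hab : a ≤ b) (hb : FineS Q c b) (hbN : b + 1 ≤ N) :
    wS Λ m (b + 1) N ≤ wS Λ m a N - c * wS Λ m a b := by
  set s : ℤ := 2 ^ b with hs
  have hs1 : 1 ≤ s := by
    have : (0 : ℤ) < 2 ^ b := by positivity
    omega
  have hΛ : (Λ * 2 ^ m : ℤ) ≤ s := by
    have h1 : (Λ * 2 ^ m : ℕ) ≤ 2 ^ b := by
      calc Λ * 2 ^ m ≤ 2 ^ L * 2 ^ m := Nat.mul_le_mul_right _ hL
        _ = 2 ^ (m + L) := by rw [← pow_add, add_comm]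
        _ ≤ 2 ^ b := Nat.pow_le_pow_right (by norm_num) (by omega)
    rw [hs]
    exact_mod_cast h1
  have has : (2 ^ a : ℤ) ≤ 2 ^ (b + 1) := pow_le_pow_right₀ (by norm_num) (by omega)
  have h2s : 2 * s = 2 ^ (b + 1) := by rw [hs, pow_succ]; ring
  set fa := iw (EC (0, 0) (Λ * 2 ^ m : ℤ) (2 ^ a : ℤ)) with hfa
  set fb := iw (EC (0, 0) (Λ * 2 ^ m : ℤ) (2 ^ (b + 1) : ℤ)) with hfb
  set gb := iw (Ann (0 : ℤ) 0 s) with hgb
  set DN := bD (0, 0) (2 ^ N - 2 : ℤ) with hDN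
  set Db := bD (0, 0) (s - 2) with hDb
  have hsub : Db ⊆ DN := bD_mono (by
    have : s ≤ 2 ^ N := by
      rw [hs]; exact pow_le_pow_right₀ (by norm_num) (by omega)
    omega)
  -- pointwise
  have hpt : ∀ t, 1 - fb t ≤ (1 - fa t) - (gb t - fa t * gb t) := by
    intro t
    have a0 := iw_nonneg (EC (0, 0) (Λ * 2 ^ m : ℤ) (2 ^ a : ℤ)) t
    have a1 := iw_le_one (EC (0, 0) (Λ * 2 ^ m : ℤ) (2 ^ a : ℤ)) t
    by_cases h1 : EC (0, 0) (Λ * 2 ^ m : ℤ) (2 ^ a : ℤ) (Wp t)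
    · have h2 : EC (0, 0) (Λ * 2 ^ m : ℤ) (2 ^ (b + 1) : ℤ) (Wp t) :=
        conf_mono (fun _ h => h) (fun _ h => h) (bx_mono has) h1
      have e1 : fa t = 1 := by rw [hfa]; unfold iw; rw [if_pos h1]
      have e2 : fb t = 1 := by rw [hfb]; unfold iw; rw [if_pos h2]
      rw [e1, e2]; linarith
    · have e1 : fa t = 0 := by rw [hfa]; unfold iw; rw [if_neg h1]
      by_cases h3 : Ann (0 : ℤ) 0 s (Wp t)
      · have h2 : EC (0, 0) (Λ * 2 ^ m : ℤ) (2 ^ (b + 1) : ℤ) (Wp t) :=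
          ann_EC (z := (0, 0)) hs1 hΛ h2s.le h3
        have e2 : fb t = 1 := by rw [hfb]; unfold iw; rw [if_pos h2]
        have e3 : gb t = 1 := by rw [hgb]; unfold iw; rw [if_pos h3]
        rw [e1, e2, e3]; norm_num
      · have e3 : gb t = 0 := by rw [hgb]; unfold iw; rw [if_neg h3]
        rw [e1, e3]
        have := iw_nonneg (EC (0, 0) (Λ * 2 ^ m : ℤ) (2 ^ (b + 1) : ℤ)) t
        have e4 : 0 ≤ fb t := this
        linarith
  have h1 := E1_mono DN hpt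
  rw [E1_sub, E1_one, E1_sub DN (fun t => 1 - fa t), E1_sub, E1_one, E1_sub DN gb] at h1
  -- conditional domination
  have h2 := E1_cond hsub (f := fa) (g := gb)
    (F.RSW.iw_mono (EC_inc _ _ _)) (iw_nonneg _) (iw_nonneg _) (fun x y hxy =>
      ann_off (z := (0, 0)) hs1 fun z hz => hxy z fun hz' => hz (inn_bD hz'))
  have h3 : c ≤ E1 DN gb := (hb.1 0 0).trans
    (by
      have := E1_ge hQ (F.RSW.IL_Ann 0 0 (2 ^ b : ℕ)) DN
      rw [hgb, hs]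
      exact_mod_cast this)
  have h4 := E1_iw Db (EC (0, 0) (Λ * 2 ^ m : ℤ) (2 ^ a : ℤ))
  show 1 - E1 DN fb ≤ 1 - E1 DN fa - c * (1 - E1 Db fa)
  have h5 : c * (1 - E1 Db fa) ≤ E1 DN gb * (1 - E1 Db fa) :=
    mul_le_mul_of_nonneg_right h3 (by rw [hfa]; linarith [h4.2])
  nlinarith [h1, h2, h5]

theorem wS_nonneg (Λ m a N : ℕ) : 0 ≤ wS Λ m a N := by
  unfold wS
  linarith [(E1_iw (bD (0, 0) (2 ^ N - 2 : ℤ)) (EC (0, 0) (Λ * 2 ^ m : ℤ) (2 ^ a : ℤ))).2]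

theorem wS_le_one (Λ m a N : ℕ) : wS Λ m a N ≤ 1 := by
  unfold wS
  linarith [(E1_iw (bD (0, 0) (2 ^ N - 2 : ℤ)) (EC (0, 0) (Λ * 2 ^ m : ℤ) (2 ^ a : ℤ))).1]

theorem wS_eq {Λ m a N : ℕ} (hN : 1 ≤ N) :
    Pr (Cfg (bx (0, 0) (2 ^ N - 2 : ℤ)) (frd (bx (0, 0) (2 ^ N - 2 : ℤ)) 0))
      (SepC (0, 0) (Λ * 2 ^ m : ℤ) (2 ^ a : ℤ))ᶜ = wS Λ m a N := by
  have h0 : (0 : ℤ) ≤ 2 ^ N - 2 := by
    have : (2 : ℤ) ^ 1 ≤ 2 ^ N := pow_le_pow_right₀ (by norm_num) hN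
    omega
  have h1 := Pr_add_compl (Cfg_finite (Dat_frd (bx_finite (0, 0) (2 ^ N - 2 : ℤ)) 0))
    ⟨one, one_mem _⟩ (SepC (0, 0) (Λ * 2 ^ m : ℤ) (2 ^ a : ℤ))
  rw [Pr_sep h0] at h1
  unfold wS
  linarith

end Vale.Agent.P153.R2.KPOS.H469
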